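import Vale.Agent.P235T.Defs

/-! P235: nested clique sums along trees with boundedly many levels. -/

namespace Vale.Agent.P235N

open Vale.Agent.P235 Vale.Agent.P235.K5 Vale.Agent.P235L
open Vale.Agent.P235T (Surf3 Centred)

/-- The nodes of the rooted tree `T` of the pieces `H[B t]` carry levels `lev t ≤ q` which do not
decrease from a node to its children, and every level `i` is of one of three kinds: all pieces of
level `i` have treewidth at most `k`; or all of them are in `P` and `Centred`; or all of them are
glued to a parent of level `i` along at most two vertices, and each of them is in `Surf3` (with any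
children) or is in `P` and `Centred`. -/
structure LevelsOf (P : ∀ V : Type, SimpleGraph V → Prop) (g k c q : ℕ) {V : Type}
    (H : SimpleGraph V) {n : ℕ} {B : ℕ → Set V} (T : BTree n B) (lev : ℕ → ℕ) : Prop where
  mono : ∀ t < n, lev (T.par t) ≤ lev t
  le : ∀ t < n, lev t ≤ q
  kind : ∀ i, (∀ t < n, lev t = i → TreewidthLE (H.induce (B t)) k) ∨
    (∀ t < n, lev t = i → P (B t) (H.induce (B t)) ∧ Centred c T lev t) ∨
    ∀ t < n, lev t = i → (lev (T.par t) = i → (Adh B t).ncard ≤ 2) ∧
      (Surf3 g k (H.induce (B t)) ∨ P (B t) (H.induce (B t)) ∧ Centred c T lev t)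

/-- Round `0`: almost embeddable graphs and `Surf3`. Round `j + 1`: the graphs of round `j`, these
with at most `a` more vertices, and the spanning subgraphs of sums, along cliques of any size, of
any number of pieces along a tree with levels as in `LevelsOf`, over the graphs of round `j`. -/
def Round (a g p w k c q : ℕ) : ℕ → ∀ V : Type, SimpleGraph V → Prop
  | 0 => fun _ G => AlmostEmb a g p w G ∨ Surf3 g k G
  | j + 1 => fun V G => Round a g p w k c q j V G ∨
      (∃ A : Set V, A.ncard ≤ a ∧ Round a g p w k c q j ↥Aᶜ (G.induce Aᶜ)) ∨
      ∃ (H : SimpleGraph V) (m n : ℕ) (B : ℕ → Set V) (T : BTree n B) (lev : ℕ → ℕ),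
        G ≤ H ∧ Glued m H n B ∧ LevelsOf (Round a g p w k c q j) g k c q H T lev

end Vale.Agent.P235N
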