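import Vale.Agent.P235T.Main
import Vale.Agent.P235N.Defs

/-! P235: nested clique sums along trees with boundedly many levels. The theorems `cenP`, `mixP`
are `P235T.cen_case`, `P235T.mix_case` for an arbitrary class of big pieces. -/

namespace Vale.Agent.P235N

open SimpleGraph Vale.Agent.P235 Vale.Agent.P235.H134 Vale.Agent.P235.K5 Vale.Agent.P235U
open Vale.Agent.P235L Vale.Agent.P235A Vale.Agent.P235G.E1 Vale.Agent.P235T

/-- `c₁ ≤ A` for all connected subgraphs of the graphs of `P` -/
def Her (P : ∀ V : Type, SimpleGraph V → Prop) (A : ℝ) : Prop :=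
  ∀ (V : Type) [Finite V] (H : SimpleGraph V), P V H → ∀ (W : Type) [Finite W]
    (G : SimpleGraph W) (φ : W → V), G.Connected → Function.Injective φ →
    (∀ x y, G.Adj x y → H.Adj (φ x) (φ y)) → DistortionLE G A

theorem cenP {P : ∀ V : Type, SimpleGraph V → Prop} {A : ℝ} (hA : Her P A) (c : ℕ) :
    ∃ C : ℝ, ∀ (V : Type) [Finite V] (H : SimpleGraph V)
    (m n : ℕ) (B : ℕ → Set V) (h : Glued m H n B) (T : BTree n B) (lev : ℕ → ℕ) (r : ℕ)
    (M : ℕ → Set V), (∀ t < n, lev (T.par t) ≤ lev t) →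
    (∀ t < n, lev t = lev r → P (B t) (H.induce (B t)) ∧ (M t).ncard ≤ c ∧
      {s | s < n ∧ 0 < s ∧ T.par s = t ∧ lev s = lev r ∧
        ¬ (Adh B s \ (M t ∪ Adh B t)).Subsingleton}.ncard ≤ c) → ClsBd C h T lev r := by
  classical
  obtain ⟨N, hN⟩ := clique_bd A
  obtain ⟨K, -, hK⟩ := K5.GX.H43.CX.centre
    (H237.CX.cx4 (Vale.Agent.P235.CX.H89.cx3 H141.CX.ngStmt)) (max A 1) (N + (c + c * N))
    (le_max_right _ _)
  refine ⟨K, fun V _ H m n B h T lev r M hm hk W _ G φ hc hφ hadj hx => ?_⟩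
  have hadh : ∀ t < n, lev t = lev r → (Adh B t).ncard ≤ N := fun t ht a1 =>
    hN V H (B t) (Adh B t) (hA _ _ (hk t ht a1).1) (fun v hv => hv.1) (h.clique t ht)
  let bad : ℕ → Set ℕ := fun t => {s | s < n ∧ 0 < s ∧ T.par s = t ∧ lev s = lev r ∧
    ¬ (Adh B s \ (M t ∪ Adh B t)).Subsingleton}
  have hfin : ∀ t, (bad t).Finite := fun t => (Set.finite_lt_nat n).subset fun s hs => hs.1
  let M₁ : ℕ → Set V := fun t => M t ∪ ⋃ s ∈ (hfin t).toFinset, Adh B s
  have hM₁ : ∀ t < n, lev t = lev r → (M₁ t).ncard ≤ c + c * N := by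
    intro t ht a1
    obtain ⟨-, b1, b2⟩ := hk t ht a1
    refine (Set.ncard_union_le _ _).trans (add_le_add b1 ?_)
    refine (Finset.set_ncard_biUnion_le _ _).trans ?_
    refine (Finset.sum_le_card_nsmul _ _ N fun s hs => ?_).trans ?_
    · have := (hfin t).mem_toFinset.1 hs
      exact hadh s this.1 this.2.2.2.1
    · rw [smul_eq_mul, ← Set.ncard_eq_toFinset_card _ (hfin t)]
      exact Nat.mul_le_mul_right _ b2
  have hle : G ≤ H.comap φ := fun x y hxy => hadj x y hxy
  have hg : Glued (N + (c + c * N)) (H.comap φ) n (pull T lev r φ) :=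
    pull_glued (S := ∅) h hm hφ hx (fun _ a => a) fun t ht _ a1 _ => by
      rw [Set.sdiff_empty]
      exact (hadh t ht a1).trans (Nat.le_add_right _ _)
  refine hK W G (H.comap φ) n (pull T lev r φ)
    (fun t => {x | x ∈ pull T lev r φ t ∧ φ x ∈ M₁ t}) hle hc hg
    (fun t ht => ⟨fun x hx' => hx'.1, ?_⟩) (fun t ht => ?_) fun u hu h0 => ?_
  · rcases ({x | x ∈ pull T lev r φ t ∧ φ x ∈ M₁ t} : Set W).eq_empty_or_nonempty with
      h0 | ⟨x, h1⟩
    · rw [h0, Set.ncard_empty]
      omega
    exact ((Set.ncard_le_ncard_of_injOn φ (fun y hy => hy.2) hφ.injOn).trans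
      (hM₁ t ht h1.1.1.2)).trans (Nat.le_add_left _ _)
  · rcases (pull T lev r φ t).eq_empty_or_nonempty with he | ⟨x, h1⟩
    · have : IsEmpty (pull T lev r φ t) := by
        rw [Set.isEmpty_coe_sort]
        exact he
      exact dist_empty _ _
    · have : Nonempty (pull T lev r φ t) := ⟨⟨x, h1⟩⟩
      exact (hA _ _ (hk t ht h1.1.2).1 _ _ (fun z : pull T lev r φ t => (⟨φ z.1, z.2.2⟩ : B t))
        ⟨K5.H266.bag_conn hg (hc.mono hle).preconnected t ht⟩
        (fun a b e => Subtype.ext (hφ (congrArg (fun z : B t => z.1) e)))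
        (fun a b hab => hab)).mono (le_max_left _ _)
  · rcases (Adh (pull T lev r φ) u).eq_empty_or_nonempty with he | ⟨x, h1⟩
    · refine ⟨0, h0, ?_, ?_⟩
      · rw [he]
        exact Set.empty_subset _
      · rw [he, Set.empty_sdiff]
        exact Set.subsingleton_empty
    obtain ⟨-, a1, a2, a3, a4⟩ := pull_par hm hu h1
    have hp : T.par u < n := a1.trans hu
    have hsub : ∀ y ∈ Adh (pull T lev r φ) u, y ∈ pull T lev r φ (T.par u) := fun y hy =>
      ⟨⟨a3, a4⟩, T.adh u h0 hu (pull_adh hy)⟩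
    refine ⟨T.par u, a1, hsub, ?_⟩
    by_cases hb : (Adh B u \ (M (T.par u) ∪ Adh B (T.par u))).Subsingleton
    · have key : ∀ y ∈ Adh (pull T lev r φ) u \ (Adh (pull T lev r φ) (T.par u) ∪
          {x | x ∈ pull T lev r φ (T.par u) ∧ φ x ∈ M₁ (T.par u)}),
          φ y ∈ Adh B u \ (M (T.par u) ∪ Adh B (T.par u)) := by
        rintro y ⟨y1, y2⟩
        refine ⟨pull_adh y1, ?_⟩
        rintro (y3 | y3)
        · exact y2 (Or.inr ⟨hsub y y1, Or.inl y3⟩)
        · exact y2 (Or.inl ⟨hsub y y1, _, ((h.mem_adh_iff hp).1 y3).2, hx y, h.it_mem _⟩)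
      exact fun y hy z hz => hφ (hb (key y hy) (key z hz))
    · intro y hy
      refine absurd (Or.inr ⟨hsub y hy.1, Or.inr ?_⟩) hy.2
      exact Set.mem_biUnion ((hfin _).mem_toFinset.2 ⟨hu, h0, rfl, a2, hb⟩) (pull_adh hy.1)

theorem mixP {P : ∀ V : Type, SimpleGraph V → Prop} {A : ℝ} (hA : Her P A) (g k c : ℕ) :
    ∃ C : ℝ, ∀ (V : Type) [Finite V] (H : SimpleGraph V)
    (m n : ℕ) (B : ℕ → Set V) (h : Glued m H n B) (T : BTree n B) (lev : ℕ → ℕ) (r : ℕ)
    (M : ℕ → Set V), (∀ t < n, lev (T.par t) ≤ lev t) →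
    (∀ t < n, lev t = lev r → (lev (T.par t) = lev r → (Adh B t).ncard ≤ 2) ∧
      (Surf3 g k (H.induce (B t)) ∨ P (B t) (H.induce (B t)) ∧ (M t).ncard ≤ c ∧
        {s | s < n ∧ 0 < s ∧ T.par s = t ∧ lev s = lev r ∧
          ¬ (Adh B s \ (M t ∪ Adh B t)).Subsingleton}.ncard ≤ c)) → ClsBd C h T lev r := by
  classical
  obtain ⟨D, hD⟩ := Vale.Agent.P235G.E1.final.1 g k
  obtain ⟨K, -, hK⟩ := mixed
  have hK' := hK (fun _ G => G.Connected → EdgeIso G D) (fun _ G => G.Connected → DistortionLE G A)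
    (max D 1) (max A 1) (c + c * 2 + 2) (le_max_right _ _) (le_max_right _ _)
    (fun V _ G hc h' => by
      intro ℓ hℓ s t hst
      obtain ⟨Ω, i1, μ, f, f1, f2⟩ := h' hc ℓ hℓ s t hst
      exact ⟨Ω, i1, μ, f, f1, fun x y => ⟨(f2 x y).1, (f2 x y).2.trans
        (mul_le_mul_of_nonneg_right (le_max_left _ _) (norm_nonneg _))⟩⟩)
    (fun V _ G hc h' => (h' hc).mono (le_max_left _ _))
  obtain ⟨K₀, hK₀⟩ : ∃ K₀ : ℝ, ∀ (V : Type) [Finite V] (G E : SimpleGraph V), G.Connected →
      H141.Star.MSum (StarPiece (fun _ G => G.Connected → EdgeIso G D)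
        (fun _ G => G.Connected → DistortionLE G A) (c + c * 2 + 2)) G E → DistortionLE G K₀ :=
    ⟨_, hK'⟩
  refine ⟨max K₀ 1, fun V _ H m n B h T lev r M hm hk => ?_⟩
  let bad : ℕ → Set ℕ := fun t => {s | s < n ∧ 0 < s ∧ T.par s = t ∧ lev s = lev r ∧
    ¬ (Adh B s \ (M t ∪ Adh B t)).Subsingleton}
  have hfin : ∀ t, (bad t).Finite := fun t => (Set.finite_lt_nat n).subset fun s hs => hs.1
  let M₁ : ℕ → Set V := fun t => M t ∪ ⋃ s ∈ (hfin t).toFinset, Adh B s
  have hM₁ : ∀ t, lev t = lev r → (M t).ncard ≤ c → (bad t).ncard ≤ c →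
      (M₁ t).ncard ≤ c + c * 2 := by
    intro t a1 b1 b2
    refine (Set.ncard_union_le _ _).trans (add_le_add b1 ?_)
    refine (Finset.set_ncard_biUnion_le _ _).trans ?_
    refine (Finset.sum_le_card_nsmul _ _ 2 fun s hs => ?_).trans ?_
    · have := (hfin t).mem_toFinset.1 hs
      exact (hk s this.1 this.2.2.2.1).1 (by rw [this.2.2.1]; exact a1)
    · rw [smul_eq_mul, ← Set.ncard_eq_toFinset_card _ (hfin t)]
      exact Nat.mul_le_mul_right _ b2
  have main : ∀ (N : ℕ) (W : Type) [Finite W] (G : SimpleGraph W) (φ : W → V), Nat.card W < N →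
      G.Connected → Function.Injective φ → (∀ x y, G.Adj x y → H.Adj (φ x) (φ y)) →
      (∀ x, T.Desc r (h.it (φ x)) ∧ lev (h.it (φ x)) = lev r) → DistortionLE G (max K₀ 1) := by
    intro N
    induction N with
    | zero => intro W _ G φ hN; omega
    | succ N ih =>
      intro W _ G φ hN hc hφ hadj hx
      have hg : Glued 2 (H.comap φ) n (pull T lev r φ) :=
        pull_glued (S := ∅) h hm hφ hx (fun _ a => a) fun t ht _ a1 a2 => by
          rw [Set.sdiff_empty]
          exact (hk t ht a1).1 a2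
      have back : ∀ t < n, ∀ x ∈ pull T lev r φ t, h.it (φ x) < t →
          x ∈ Adh (pull T lev r φ) t := fun t _ x x1 x2 => ⟨x1, _, x2, hx x, h.it_mem _⟩
      by_cases hs : ∃ t < n, (∃ x ∈ pull T lev r φ t, x ∉ Bef (pull T lev r φ) t) ∧
          (∃ y ∈ Bef (pull T lev r φ) t, y ∉ pull T lev r φ t) ∧
          (Adh (pull T lev r φ) t).Subsingleton
      · obtain ⟨t, ht, ⟨x, x1, x2⟩, ⟨y, ⟨s, hs, y1⟩, y2⟩, hsub⟩ := hs
        let S : Set W := {z | φ z ∈ h.Sub T t}
        have xS : x ∈ S := by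
          have e : h.it (φ x) = t := by
            by_contra a
            exact x2 (back t ht x x1 (lt_of_le_of_ne (h.it_le ht x1.2) a)).2
          show T.Desc t (h.it (φ x))
          rw [e]
          exact BTree.Desc.refl t
        have yS : y ∉ S := fun a => by
          have a1 : t ≤ h.it (φ y) := BTree.Desc.le a
          have a2 := h.it_le (hs.trans ht) y1.2
          omega
        have out : ∀ u ∈ S, ∀ v ∉ S, G.Adj u v → v ∈ Adh (pull T lev r φ) t := by
          intro u hu v hv huv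
          have a1 := h.leave hu hv (hadj _ _ huv)
          exact back t ht v ⟨x1.1, a1.1⟩ ((h.mem_adh_iff ht).1 a1).2
        obtain ⟨ρ⟩ := hc.preconnected x y
        obtain ⟨d, -, d1, d2⟩ := ρ.exists_boundary_dart S xS yS
        have hv := out _ d1 _ d2 d.adj
        have hU : (S ∪ {d.snd}) ∪ Sᶜ = Set.univ := Set.eq_univ_of_forall fun z => by
          by_cases a : z ∈ S
          · exact Or.inl (Or.inl a)
          · exact Or.inr a
        have hI : (S ∪ {d.snd}) ∩ Sᶜ = {d.snd} := by
          ext z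
          constructor
          · rintro ⟨a | a, b⟩
            · exact absurd a b
            · exact a
          · rintro rfl
            exact ⟨Or.inr rfl, d2⟩
        have hn : ∀ a b, a ∉ Sᶜ → b ∉ S ∪ {d.snd} → ¬ G.Adj a b := fun a b ha hb hab =>
          hb (Or.inr (hsub (out a (not_not.1 ha) b (fun e => hb (Or.inl e)) hab) hv))
        have hcA := side_connected hc hU hI hn
        have hcB : (G.induce Sᶜ).Connected := side_connected hc
          (by rw [Set.union_comm]; exact hU) (by rw [Set.inter_comm]; exact hI)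
          (fun a b ha hb h => hn b a hb ha h.symm)
        have yA : y ∉ S ∪ {d.snd} := by
          rintro (a | a)
          · exact yS a
          · exact y2 (by rw [show y = d.snd from a]; exact hv.1)
        have l1 : Nat.card ↥(S ∪ {d.snd}) < Nat.card W := Finite.card_subtype_lt yA
        have l2 : Nat.card ↥Sᶜ < Nat.card W :=
          Finite.card_subtype_lt (x := x) (p := fun z => z ∈ Sᶜ) fun a => a xS
        exact distortion_vertexSum (lt_of_lt_of_le one_pos (le_max_right _ _)) hc hU hI hn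
          (ih _ _ (fun z => φ z.1) (by omega) hcA (fun a b e => Subtype.ext (hφ e))
            (fun a b hab => hadj _ _ hab) fun z => hx z.1)
          (ih _ _ (fun z => φ z.1) (by omega) hcB (fun a b e => Subtype.ext (hφ e))
            (fun a b hab => hadj _ _ hab) fun z => hx z.1)
      · let E : SimpleGraph W :=
          { Adj := fun x y => x ≠ y ∧ ∃ s < n, x ∈ Adh (pull T lev r φ) s ∧
              y ∈ Adh (pull T lev r φ) s
            symm := ⟨fun _ _ ⟨a, s, b, c, d⟩ => ⟨a.symm, s, b, d, c⟩⟩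
            loopless := ⟨fun _ a => a.1 rfl⟩ }
        have hle : G ≤ H.comap φ := fun x y hxy => hadj x y hxy
        have hH : (H.comap φ).Connected := hc.mono hle
        refine DistortionLE.mono (DistortionLE.emb id Function.injective_id
          (fun x y hxy => hle hxy) hH hc (hK₀ W (H.comap φ) E hH ?_)) (le_max_left _ _)
        refine msum_of (E := E) hg (fun x y ⟨a, s, b, c, d⟩ => hg.clique s b x c y d a)
          (fun t ht x a y b e => ⟨e, t, ht, a, b⟩) (fun t ht a b c => hs ⟨t, ht, a, b, c⟩)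
          (fun U _ G' F => Or.inl fun a => (a.nonempty.elim fun u => isEmptyElim u))
          (fun t ht U _ ι hι hU => ?_) n le_rfl W id Function.injective_id
          fun x => ⟨fun _ => ⟨x, rfl⟩, fun _ => hg.cover x⟩
        rcases isEmpty_or_nonempty U with hE | ⟨⟨u0⟩⟩
        · exact Or.inl fun a => (a.nonempty.elim fun u => isEmptyElim u)
        have hQ := (hU u0).1
        have hψ : Function.Injective fun u : U => (⟨φ (ι u), (hU u).2⟩ : B t) :=
          fun a b e => hι (hφ (congrArg (fun z : B t => z.1) e))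
        rcases (hk t ht hQ.2).2 with a1 | ⟨a1, a2, a3⟩
        · exact Or.inl fun hc' => (hD U _ hc' (Or.inr (Or.inr
            (surf3_comap (H := H.induce (B t)) _ hψ (fun a b hab => hab) a1)))).1
        refine Or.inr ⟨fun hc' => hA _ (H.induce (B t)) a1 U _ _ hc' hψ (fun a b hab => hab),
          (Set.toFinite ({u | φ (ι u) ∈ M₁ t} ∪ {u | ι u ∈ Adh (pull T lev r φ) t})).toFinset,
          ?_, ?_⟩
        · rw [← Set.ncard_eq_toFinset_card]
          refine (Set.ncard_union_le _ _).trans (add_le_add ?_ ?_)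
          · exact (Set.ncard_le_ncard_of_injOn (fun u => φ (ι u)) (fun _ a => a)
              (hφ.comp hι).injOn).trans (hM₁ t hQ.2 a2 a3)
          · exact (Set.ncard_le_ncard_of_injOn ι (fun _ a => a) hι.injOn).trans (hg.card t ht)
        · rintro u v ⟨hne, s, hs', u1, v1⟩
          simp only [Set.Finite.mem_toFinset]
          by_contra hcon
          obtain ⟨u2, v2⟩ := not_or.1 hcon
          have e : h.it (φ (ι u)) = t := by
            by_contra a
            exact u2 (Or.inr (back t ht _ (hU u) (lt_of_le_of_ne (h.it_le ht (hU u).2) a)))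
          have d1 : T.Desc t s := e ▸ h.desc_of_mem (T := T) hs' u1.1.2
          obtain ⟨c', c1, c2, c3⟩ := exists_child s hs' d1 fun a => u2 (Or.inr (by
            show ι u ∈ Adh (pull T lev r φ) t
            rw [a]
            exact u1))
          have c4 : c' < n := lt_of_le_of_lt c3.le hs'
          have c5 : lev c' = lev r := by
            have b1 := lev_mono hm s hs' c3
            have b2 := hm c' c4
            have b3 := u1.1.1.2
            have b4 := hQ.2
            rw [c1] at b2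
            omega
          have key : ∀ z : U, ι z ∈ Adh (pull T lev r φ) s → φ (ι z) ∈ Adh B c' := by
            intro z hz
            refine (h.mem_sub_or hs' c3 hz.1.2).resolve_left fun a => ?_
            have b1 : c' ≤ h.it (φ (ι z)) := BTree.Desc.le a
            have b2 := h.it_le ht (hU z).2
            omega
          by_cases hb : (Adh B c' \ (M t ∪ Adh B t)).Subsingleton
          · have key2 : ∀ z : U, ι z ∈ Adh (pull T lev r φ) s →
                z ∉ {u | φ (ι u) ∈ M₁ t} ∪ {u | ι u ∈ Adh (pull T lev r φ) t} →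
                φ (ι z) ∈ Adh B c' \ (M t ∪ Adh B t) := by
              intro z z1 z2
              refine ⟨key z z1, ?_⟩
              rintro (a | a)
              · exact z2 (Or.inl (Or.inl a))
              · exact z2 (Or.inr (back t ht _ (hU z) ((h.mem_adh_iff ht).1 a).2))
            exact hne (hφ (hb (key2 u u1 u2) (key2 v v1 v2)))
          · refine u2 (Or.inl (Or.inr ?_))
            exact Set.mem_biUnion ((hfin _).mem_toFinset.2 ⟨c4, by omega, c1, c5, hb⟩) (key u u1)
  exact fun W _ G φ => main _ W G φ (Nat.lt_succ_self _)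

theorem her (a g p w k c q j : ℕ) : ∃ C : ℝ, Her (Round a g p w k c q j) C := by
  induction j with
  | zero =>
    obtain ⟨A₁, h1⟩ := almost_sub a g p w
    obtain ⟨A₂, h2⟩ := Vale.Agent.P235G.E1.final.1 g k
    refine ⟨max A₁ A₂, fun V _ H h W _ G φ hc hφ hadj => ?_⟩
    rcases h with h | h
    · exact (h1 V W H G φ hc hφ hadj h).mono (le_max_left _ _)
    · exact (h2 W G hc (Or.inr (Or.inr (surf3_comap φ hφ hadj h)))).2.1.mono (le_max_right _ _)
  | succ j ih =>
    obtain ⟨A, hA⟩ := ih
    obtain ⟨C₀, -, hap⟩ := apex_log'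
    obtain ⟨A₁, h1⟩ := tw_case k
    obtain ⟨A₂, h2⟩ := cenP hA c
    obtain ⟨A₃, h3⟩ := mixP hA g k c
    obtain ⟨C, hC⟩ := level_ind (max A₁ (max A₂ A₃)) (q + 1)
    refine ⟨max A (max (C₀ * (max A 0 + Real.log (a + 2))) C),
      fun V _ H₀ h₀ W _ G φ hc hφ hadj => ?_⟩
    rcases h₀ with h₀ | ⟨S, hS, h₀⟩ | ⟨H, m, n, B, T, lev, hH, h, L⟩
    · exact (hA V H₀ h₀ W G φ hc hφ hadj).mono (le_max_left _ _)
    · refine DistortionLE.mono (hap (max A 0) (le_max_right _ _) a W G hc {x | φ x ∈ S}
        ((Set.ncard_le_ncard_of_injOn φ (fun y hy => hy) hφ.injOn).trans hS)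
        fun u hu => DistortionLE.mono ?_ (le_max_left _ _))
        ((le_max_left _ _).trans (le_max_right _ _))
      exact hA _ _ h₀ _ _
        (fun z : compSet G {x | φ x ∈ S} u =>
          (⟨φ z.1, ReachOff.right (X := {x | φ x ∈ S}) z.2⟩ : ↥Sᶜ)) (comp_connected hu)
        (fun a b e => Subtype.ext (hφ (congrArg (fun z : ↥Sᶜ => z.1) e)))
        (fun a b hab => hadj _ _ hab)
    · obtain ⟨v⟩ := hc.nonempty
      have hn : 0 < n := lt_of_le_of_lt (Nat.zero_le _) (h.it_lt (φ v))
      obtain ⟨M, hM⟩ := centres c T lev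
      refine DistortionLE.mono (hC V H m n B h T lev q L.mono L.le (fun r _ => ?_) 0 hn (by omega)
        W G φ hc hφ (fun x y hxy => hH (hadj x y hxy)) fun x => BTree.Desc.zero _ (h.it_lt _))
        ((le_max_right _ _).trans (le_max_right _ _))
      rcases L.kind (lev r) with a1 | a1 | a1
      · exact (h1 V H m n B h T lev r a1).mono (le_max_left _ _)
      · exact (h2 V H m n B h T lev r M L.mono fun t ht e =>
          ⟨(a1 t ht e).1, hM t _ e (a1 t ht e).2⟩).mono
          ((le_max_left _ _).trans (le_max_right _ _))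
      · exact (h3 V H m n B h T lev r M L.mono fun t ht e =>
          ⟨(a1 t ht e).1, (a1 t ht e).2.imp id fun b => ⟨b.1, hM t _ e b.2⟩⟩).mono
          ((le_max_right _ _).trans (le_max_right _ _))

theorem rounds (a g p w k c q j : ℕ) : ∃ C : ℝ, ∀ (V : Type) [Finite V] (G : SimpleGraph V),
    G.Connected → Round a g p w k c q j V G → Bd G C := by
  obtain ⟨C, hC⟩ := her a g p w k c q j
  exact ⟨C, fun V _ G hc h =>
    bd_of hc (hC V G h V G id hc Function.injective_id fun _ _ a => a)⟩

end Vale.Agent.P235N
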